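import Mathlib
import Crest.Prelude.Def_MultiMarginal
import Crest.Agent.R82.Monge

set_option autoImplicit false

namespace Crest.Agent.R130M

open MeasureTheory Filter Topology Set
open scoped ENNReal
open Crest.AnalysisR.OT Crest.Agent.R82

/-- Joint-law lemma: any coupling `Γ` with first marginal an atomless-along-`l` measure `ρ` can be
imitated, after a finite-range quantisation `P` of the first coordinate, by a map. -/
theorem exists_joint {X Y : Type*} [MeasurableSpace X] [MeasurableSingletonClass X]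
    [MeasurableSpace Y] [Nonempty Y] [StandardBorelSpace Y] (ρ : Measure X) [IsFiniteMeasure ρ]
    (l : X → ℝ) (hl : Measurable l) (h0 : ∀ c, ρ (l ⁻¹' {c}) = 0)
    (Γ : Measure (X × Y)) (hΓ1 : Γ.map Prod.fst = ρ) (t : Finset X) (P : X → X)
    (hP : Measurable P) (hPt : ∀ x, P x ∈ t) :
    ∃ S : X → Y, Measurable S ∧ ρ.map (fun x => (P x, S x)) = Γ.map (fun p => (P p.1, p.2)) := by
  classical
  have hmeas : ∀ c, MeasurableSet (P ⁻¹' {c}) := fun c => hP (measurableSet_singleton c)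
  have hP1 : Measurable fun p : X × Y => P p.1 := hP.comp measurable_fst
  have hex : ∀ c, ∃ S : X → Y, Measurable S ∧ (ρ.restrict (P ⁻¹' {c})).map S =
      (Γ.restrict ((fun p : X × Y => P p.1) ⁻¹' {c})).map Prod.snd := by
    intro c
    refine exists_map_of_mass_eq _ _ ?_ l hl fun a => ?_
    · rw [Measure.map_apply measurable_snd MeasurableSet.univ, Set.preimage_univ,
        Measure.restrict_apply_univ, Measure.restrict_apply_univ, ← hΓ1,
        Measure.map_apply measurable_fst (hmeas c)]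
      rfl
    · exact le_antisymm ((Measure.restrict_apply_le _ _).trans (h0 a).le) bot_le
  choose Sc hSc hScm using hex
  let S : X → Y := fun x => Sc (P x) x
  have hS : Measurable S := by
    intro B hB
    have : S ⁻¹' B = ⋃ c ∈ t, (P ⁻¹' {c} ∩ Sc c ⁻¹' B) := by
      ext x
      simp only [S, Set.mem_preimage, Set.mem_iUnion, Set.mem_inter_iff, Set.mem_singleton_iff]
      exact ⟨fun h => ⟨P x, hPt x, rfl, h⟩, fun ⟨c, _, h1, h2⟩ => h1 ▸ h2⟩
    rw [this]
    exact Finset.measurableSet_biUnion _ fun c _ => (hmeas c).inter (hSc c hB)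
  refine ⟨S, hS, ?_⟩
  conv_lhs => rw [← sum_restrict_fiber ρ t P hP hPt]
  conv_rhs => rw [← sum_restrict_fiber Γ t (fun p : X × Y => P p.1) hP1 (fun p => hPt p.1)]
  rw [Measure.map_finset_sum (hP.prodMk hS).aemeasurable,
    Measure.map_finset_sum (hP1.prodMk measurable_snd).aemeasurable]
  refine Finset.sum_congr rfl fun c _ => ?_
  have e1 : (ρ.restrict (P ⁻¹' {c})).map (fun x => (P x, S x)) =
      (ρ.restrict (P ⁻¹' {c})).map (Prod.mk c ∘ Sc c) := by
    refine Measure.map_congr ((ae_restrict_mem (hmeas c)).mono fun x hx => ?_)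
    have hx' : P x = c := hx
    simp [S, hx']
  have e2 : (Γ.restrict ((fun p : X × Y => P p.1) ⁻¹' {c})).map (fun p => (P p.1, p.2)) =
      (Γ.restrict ((fun p : X × Y => P p.1) ⁻¹' {c})).map (Prod.mk c ∘ Prod.snd) := by
    refine Measure.map_congr ((ae_restrict_mem (hP1 (measurableSet_singleton c))).mono
      fun x hx => ?_)
    have hx' : P x.1 = c := hx
    simp [hx']
  rw [e1, e2, ← Measure.map_map measurable_prodMk_left (hSc c), hScm,
    Measure.map_map measurable_prodMk_left measurable_snd]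

section
variable {E : Type*} [NormedAddCommGroup E]

theorem pairCost_le {s : ℝ} (hs : 0 < s) {a δ : ℝ} (ha : 0 < a) (hδa : δ < a) {x x' y : E}
    (hx : ‖x - x'‖ ≤ δ) (hy : a ≤ ‖x' - y‖) :
    pairCost s x y ≤ ENNReal.ofReal (1 - δ / a) ^ (-s) * pairCost s x' y := by
  have hδ : 0 ≤ δ := (norm_nonneg _).trans hx
  have hl : 0 < 1 - δ / a := by rw [sub_pos, div_lt_one ha]; exact hδa
  have h1 : (1 - δ / a) * ‖x' - y‖ ≤ ‖x - y‖ := by
    have h2 : ‖x' - y‖ ≤ ‖x - y‖ + δ := by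
      calc ‖x' - y‖ = ‖(x - y) - (x - x')‖ := by congr 1; abel
        _ ≤ ‖x - y‖ + ‖x - x'‖ := norm_sub_le _ _
        _ ≤ _ := by linarith
    have h3 : δ ≤ δ / a * ‖x' - y‖ := by
      rw [div_mul_eq_mul_div, le_div_iff₀ ha]
      exact mul_le_mul_of_nonneg_left hy hδ
    linarith
  unfold pairCost
  rw [← ENNReal.mul_rpow_of_ne_top ENNReal.ofReal_ne_top ENNReal.ofReal_ne_top,
    ← ENNReal.ofReal_mul hl.le, ENNReal.rpow_neg, ENNReal.rpow_neg]
  exact ENNReal.inv_le_inv.mpr (ENNReal.rpow_le_rpow (ENNReal.ofReal_le_ofReal h1) hs.le)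

theorem tripleCost_le {s : ℝ} (hs : 0 < s) {a δ : ℝ} (ha : 0 < a) (hδa : δ < a) {x x' : E}
    {q : E × E} (hx : ‖x - x'‖ ≤ δ) (h1 : a ≤ ‖x' - q.1‖) (h2 : a ≤ ‖x' - q.2‖) :
    tripleCost s (x, q) ≤ ENNReal.ofReal (1 - δ / a) ^ (-s) * tripleCost s (x', q) := by
  have hδ : 0 ≤ δ := (norm_nonneg _).trans hx
  have hk : 1 ≤ ENNReal.ofReal (1 - δ / a) ^ (-s) := by
    rw [ENNReal.rpow_neg, ENNReal.one_le_inv]
    refine ENNReal.rpow_le_one ?_ hs.le
    rw [ENNReal.ofReal_le_one]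
    have := div_nonneg hδ ha.le
    linarith
  unfold tripleCost
  simp only [mul_add]
  refine add_le_add (add_le_add (pairCost_le hs ha hδa hx h1) (pairCost_le hs ha hδa hx h2)) ?_
  exact le_mul_of_one_le_left bot_le hk

theorem measurable_tripleCost [MeasurableSpace E] [BorelSpace E] [SecondCountableTopology E]
    (s : ℝ) : Measurable (tripleCost (E := E) s) := by
  unfold tripleCost pairCost
  fun_prop

end

theorem volume_hyperplane {d : ℕ} (i : Fin d) (c : ℝ) :
    volume ((fun x : EuclideanSpace ℝ (Fin d) => x i) ⁻¹' {c}) = 0 := by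
  have := (PiLp.volume_preserving_ofLp (Fin d)).measure_preimage
    (s := {f : Fin d → ℝ | f i = c}) (measurableSet_eq_fun (measurable_pi_apply i)
      measurable_const).nullMeasurableSet
  rw [volume_pi, Measure.pi_hyperplane] at this
  exact this

/-- Monge plans approximate a separated three-marginal plan. -/
theorem monge_approx {d : ℕ} (hd : 1 ≤ d) {s : ℝ} (hs : 0 < s)
    (μ : Measure (EuclideanSpace ℝ (Fin d))) [IsProbabilityMeasure μ] (hac : μ ≪ volume)
    {K : Set (EuclideanSpace ℝ (Fin d))} (hK : IsCompact K) (hμK : ∀ᵐ x ∂μ, x ∈ K)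
    {π₀ : Measure (EuclideanSpace ℝ (Fin d) × EuclideanSpace ℝ (Fin d) ×
      EuclideanSpace ℝ (Fin d))} (hπ : IsCoupling₃ μ π₀) {δ₀ : ℝ} (hδ₀ : 0 < δ₀)
    (hsep : ∀ᵐ p ∂π₀, δ₀ ≤ ‖p.1 - p.2.1‖ ∧ δ₀ ≤ ‖p.1 - p.2.2‖)
    (hfin : ∫⁻ p, tripleCost s p ∂π₀ < ⊤) (ε : ℝ≥0∞) (hε : 0 < ε) :
    ∃ T₂ T₃ : EuclideanSpace ℝ (Fin d) → EuclideanSpace ℝ (Fin d), Measurable T₂ ∧ Measurable T₃ ∧
      μ.map T₂ = μ ∧ μ.map T₃ = μ ∧
      ∫⁻ x, tripleCost s (x, T₂ x, T₃ x) ∂μ < ∫⁻ p, tripleCost s p ∂π₀ + ε := by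
  obtain ⟨h1, h2, h3⟩ := hπ
  set C := ∫⁻ p, tripleCost s p ∂π₀ with hC
  set a := δ₀ / 2 with ha
  have ha0 : 0 < a := by positivity
  let k : ℝ → ℝ≥0∞ := fun δ => ENNReal.ofReal (1 - δ / a) ^ (-s)
  have hk : Tendsto k (𝓝 0) (𝓝 1) := by
    have : Continuous k := ENNReal.continuous_rpow_const.comp
      (ENNReal.continuous_ofReal.comp (by fun_prop))
    have := this.tendsto 0
    simpa [k] using this
  have hkk : Tendsto (fun δ => k δ * (k δ * C)) (𝓝 0) (𝓝 C) := by
    have e1 := ENNReal.Tendsto.mul_const (b := C) hk (Or.inl one_ne_zero)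
    have e2 := ENNReal.Tendsto.mul hk (Or.inl one_ne_zero) e1 (Or.inr ENNReal.one_ne_top)
    simpa using e2
  have hlt : C < C + ε := ENNReal.lt_add_right hfin.ne hε.ne'
  have hev : ∀ᶠ δ in 𝓝[>] (0 : ℝ), k δ * (k δ * C) < C + ε ∧ δ < a ∧ 0 < δ := by
    refine ((hkk.eventually (gt_mem_nhds hlt)).filter_mono nhdsWithin_le_nhds).and
      (((gt_mem_nhds ha0).filter_mono nhdsWithin_le_nhds).and self_mem_nhdsWithin)
  obtain ⟨δ, hδ1, hδa, hδ0⟩ := hev.exists
  obtain ⟨t, P, hP, hPt, -, hPd⟩ := exists_net hK hμK.exists hδ0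
  obtain ⟨S, hS, hJ⟩ := exists_joint μ (fun x => x ⟨0, hd⟩) (by fun_prop)
    (fun c => hac (volume_hyperplane _ c)) π₀ h1 t P hP hPt
  have hP1 : Measurable fun p : EuclideanSpace ℝ (Fin d) × EuclideanSpace ℝ (Fin d) ×
      EuclideanSpace ℝ (Fin d) => (P p.1, p.2) := (hP.comp measurable_fst).prodMk measurable_snd
  have hPS : Measurable fun x => (P x, S x) := hP.prodMk hS
  have hπK : ∀ᵐ p ∂π₀, p.1 ∈ K := by
    rw [← h1] at hμK
    exact ae_of_ae_map measurable_fst.aemeasurable hμK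
  have hsep' : ∀ᵐ x ∂μ, a ≤ ‖P x - (S x).1‖ ∧ a ≤ ‖P x - (S x).2‖ := by
    have hm : MeasurableSet {q : EuclideanSpace ℝ (Fin d) × EuclideanSpace ℝ (Fin d) ×
        EuclideanSpace ℝ (Fin d) | a ≤ ‖q.1 - q.2.1‖ ∧ a ≤ ‖q.1 - q.2.2‖} :=
      (IsClosed.inter (isClosed_le (f := fun _ => a) (g := fun q : EuclideanSpace ℝ (Fin d) ×
        EuclideanSpace ℝ (Fin d) × EuclideanSpace ℝ (Fin d) => ‖q.1 - q.2.1‖) (by fun_prop)
        (by fun_prop)) (isClosed_le (f := fun _ => a) (g := fun q : EuclideanSpace ℝ (Fin d) ×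
        EuclideanSpace ℝ (Fin d) × EuclideanSpace ℝ (Fin d) => ‖q.1 - q.2.2‖) (by fun_prop)
        (by fun_prop))).measurableSet
    have : ∀ᵐ q ∂(π₀.map fun p => (P p.1, p.2)), a ≤ ‖q.1 - q.2.1‖ ∧ a ≤ ‖q.1 - q.2.2‖ := by
      rw [ae_map_iff hP1.aemeasurable hm]
      filter_upwards [hπK, hsep] with p hp hq
      have hd := hPd _ hp
      rw [dist_eq_norm] at hd
      have key : ∀ y, δ₀ ≤ ‖p.1 - y‖ → a ≤ ‖P p.1 - y‖ := by
        intro y hy
        have : ‖p.1 - y‖ ≤ ‖p.1 - P p.1‖ + ‖P p.1 - y‖ := norm_sub_le_norm_sub_add_norm_sub _ _ _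
        linarith
      exact ⟨key _ hq.1, key _ hq.2⟩
    rw [← hJ] at this
    exact ae_of_ae_map hPS.aemeasurable this
  refine ⟨fun x => (S x).1, fun x => (S x).2, hS.fst, hS.snd, ?_, ?_, ?_⟩
  · have := congrArg (Measure.map fun p => p.2.1) hJ
    rw [Measure.map_map (by fun_prop) hPS, Measure.map_map (by fun_prop) hP1] at this
    exact this.trans h2
  · have := congrArg (Measure.map fun p => p.2.2) hJ
    rw [Measure.map_map (by fun_prop) hPS, Measure.map_map (by fun_prop) hP1] at this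
    exact this.trans h3
  refine lt_of_le_of_lt ?_ hδ1
  have hm := measurable_tripleCost (E := EuclideanSpace ℝ (Fin d)) s
  calc ∫⁻ x, tripleCost s (x, (S x).1, (S x).2) ∂μ
      ≤ ∫⁻ x, k δ * tripleCost s (P x, S x) ∂μ := by
        refine lintegral_mono_ae ?_
        filter_upwards [hμK, hsep'] with x hx hq
        have hd := hPd _ hx
        rw [dist_eq_norm] at hd
        exact tripleCost_le hs ha0 hδa hd hq.1 hq.2
    _ = k δ * ∫⁻ p, tripleCost s (P p.1, p.2) ∂π₀ := by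
        rw [lintegral_const_mul (f := fun x => tripleCost s (P x, S x)) _ (hm.comp hPS),
          ← lintegral_map hm hPS, hJ, lintegral_map hm hP1]
    _ ≤ k δ * (k δ * C) := by
        gcongr
        rw [hC, ← lintegral_const_mul _ hm]
        refine lintegral_mono_ae ?_
        filter_upwards [hπK, hsep] with p hp hq
        have hd := hPd _ hp
        rw [dist_comm, dist_eq_norm] at hd
        exact tripleCost_le (x' := p.1) (q := p.2) hs ha0 hδa hd (by linarith [hq.1])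
          (by linarith [hq.2])

end Crest.Agent.R130M
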